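import Vale.Agent.P321W.Lower
import Vale.Agent.P321Z.Upper
import Vale.Agent.P321.H79.Fin

/-!
Worst-case trace reconstruction.  Lower bound `exp (c log n (q ^ 3 log n) ^ (1/46))` for the number
of traces, and the matching bound for the total variation distance of a hardest pair, as soon as
`q ^ 3 log n ≥ C`; in particular at least `n ^ (A log (q ^ 3 log n))` traces, for every constant `A`,
along every sequence with `q ^ 3 log n → ∞`.  The upper bounds are stated along with it.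
-/

namespace Vale.Agent.Results.P321.Window

open Vale.Agent.P321 Vale.Agent.P321Z Vale.Agent.P321W Filter Topology
open scoped unitInterval

theorem upper_s {a : ℝ} (ha : 2 < a) : ∃ C : ℝ, 0 < C ∧ ∀ q : I, (q : ℝ) < 1 → ∀ n : ℕ, 2 ≤ n →
    ∀ s : ℝ, s ≤ 1 - Real.exp (-n) →
      Ts q s n ≤ (⌊Real.exp (C / (1 - q) * (Real.log n) ^ a)⌋₊ : ℕ∞) := by
  obtain ⟨C, hC, h⟩ := H778.exp_two ha
  have hl2 : 0 < Real.log 2 := Real.log_pos (by norm_num)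
  have hp : 0 < (Real.log 2) ^ (a - 1) := Real.rpow_pos_of_pos hl2 _
  refine ⟨2 * C + 13 / (Real.log 2) ^ (a - 1), by positivity, fun q hq n hn s hs => ?_⟩
  have hnR : (2 : ℝ) ≤ n := by exact_mod_cast hn
  have hL : Real.log 2 ≤ Real.log n := Real.log_le_log (by norm_num) hnR
  have hL0 : 0 < Real.log n := by linarith
  have h1q : 0 < 1 - (q : ℝ) := by linarith
  have hLa : 0 < (Real.log n) ^ a := Real.rpow_pos_of_pos hL0 _
  refine (Ts_le_of_T q hn (by positivity) (h q hq n hn) hs).trans ?_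
  have e1 : 13 * Real.log n ≤ 13 / (Real.log 2) ^ (a - 1) / (1 - q) * (Real.log n) ^ a := by
    have f1 : (Real.log 2) ^ (a - 1) ≤ (Real.log n) ^ (a - 1) :=
      Real.rpow_le_rpow hl2.le hL (by linarith)
    have f2 : (Real.log n) ^ a = (Real.log n) ^ (a - 1) * Real.log n := by
      rw [← Real.rpow_add_one hL0.ne']; ring_nf
    have f3 : 13 * Real.log n ≤ 13 / (Real.log 2) ^ (a - 1) * (Real.log n) ^ a := by
      rw [f2, div_mul_eq_mul_div, le_div_iff₀ hp]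
      nlinarith
    refine f3.trans (mul_le_mul_of_nonneg_right ?_ hLa.le)
    rw [le_div_iff₀ h1q]
    have : 0 ≤ 13 / (Real.log 2) ^ (a - 1) := by positivity
    nlinarith [q.2.1]
  have e2 : 2 * (C / (1 - q) * (Real.log n) ^ a) + 13 * Real.log n ≤
      (2 * C + 13 / (Real.log 2) ^ (a - 1)) / (1 - q) * (Real.log n) ^ a := by
    have : (2 * C + 13 / (Real.log 2) ^ (a - 1)) / (1 - q) * (Real.log n) ^ a =
        2 * (C / (1 - q) * (Real.log n) ^ a) +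
          13 / (Real.log 2) ^ (a - 1) / (1 - q) * (Real.log n) ^ a := by ring
    linarith
  exact_mod_cast Nat.floor_le_floor (Real.exp_le_exp.2 e2)

theorem half_s {a : ℝ} (ha : 2 < a) : ∃ C : ℝ, 0 < C ∧ ∀ q : I, 0 < (q : ℝ) → (q : ℝ) ≤ 1 / 2 →
    ∀ n : ℕ, 2 ≤ n → ∀ s : ℝ, s ≤ 1 - Real.exp (-n) →
      Ts q s n ≤ (⌊Real.exp (C * Real.log n *
        (1 + Real.log n / Real.log (1 / (q : ℝ))) ^ (a - 1))⌋₊ : ℕ∞) := by
  obtain ⟨C, hC, h⟩ := H79.T_half ha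
  refine ⟨2 * C + 13, by positivity, fun q h0 h2 n hn s hs => ?_⟩
  have hnR : (2 : ℝ) ≤ n := by exact_mod_cast hn
  have hL0 : 0 < Real.log n := Real.log_pos (by linarith)
  have hq : 0 < Real.log (1 / (q : ℝ)) := by
    refine Real.log_pos ?_
    rw [lt_div_iff₀ h0]
    linarith
  have h1 : 1 ≤ (1 + Real.log n / Real.log (1 / (q : ℝ))) ^ (a - 1) :=
    Real.one_le_rpow (by have := div_pos hL0 hq; linarith) (by linarith)
  refine (Ts_le_of_T q hn (by positivity) (h q h0 h2 n hn) hs).trans ?_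
  have e : 2 * (C * Real.log n * (1 + Real.log n / Real.log (1 / (q : ℝ))) ^ (a - 1))
      + 13 * Real.log n
      ≤ (2 * C + 13) * Real.log n * (1 + Real.log n / Real.log (1 / (q : ℝ))) ^ (a - 1) := by
    have := mul_le_mul_of_nonneg_left h1 hL0.le
    linarith
  exact_mod_cast Nat.floor_le_floor (Real.exp_le_exp.2 e)

theorem small_s {δ : ℝ} (hδ : 0 < δ) : ∃ C : ℝ, 0 < C ∧ ∀ n : ℕ, 2 ≤ n → ∀ q : I,
    (q : ℝ) ≤ (n : ℝ) ^ (-δ) → ∀ s : ℝ, s ≤ 1 - Real.exp (-n) →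
      Ts q s n ≤ (⌊(n : ℝ) ^ C⌋₊ : ℕ∞) := by
  obtain ⟨C, hC, h⟩ := H79.T_poly hδ
  refine ⟨2 * C + 13, by positivity, fun n hn q hq s hs => ?_⟩
  have hnR : (2 : ℝ) ≤ n := by exact_mod_cast hn
  have hn0 : (0 : ℝ) < n := by linarith
  have hL0 : 0 < Real.log n := Real.log_pos (by linarith)
  have h1 := h n hn q hq
  rw [Real.rpow_def_of_pos hn0] at h1
  have h2 := Ts_le_of_T q hn (by positivity) h1 hs
  rw [Real.rpow_def_of_pos hn0]
  have e : 2 * (Real.log n * C) + 13 * Real.log n = Real.log n * (2 * C + 13) := by ring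
  rwa [e] at h2

theorem seq_form (q : ℕ → I)
    (hq : Tendsto (fun n : ℕ => (q n : ℝ) ^ 3 * Real.log n) atTop atTop) (A s : ℝ) (hs : 0 < s) :
    ∀ᶠ n : ℕ in atTop,
      minTV (q n) n ≤ ENNReal.ofReal
        ((n : ℝ) ^ (-(A * Real.log ((q n : ℝ) ^ 3 * Real.log n)))) ∧
      (⌈(n : ℝ) ^ (A * Real.log ((q n : ℝ) ^ 3 * Real.log n))⌉₊ : ℕ∞) ≤ Ts (q n) s n := by
  obtain ⟨c, C, hc, h⟩ := lower_cube
  have hlog : Tendsto (fun n : ℕ => Real.log (n : ℝ)) atTop atTop :=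
    Real.tendsto_log_atTop.comp tendsto_natCast_atTop_atTop
  have ev1 : ∀ᶠ x : ℝ in atTop, A * Real.log x ≤ c * x ^ (1 / 46 : ℝ) := by
    have h1 := ((isLittleO_log_rpow_atTop (r := 1 / 46) (by norm_num)).const_mul_left A).bound hc
    filter_upwards [h1, eventually_ge_atTop 0] with x hx hx0
    rw [Real.norm_eq_abs, Real.norm_eq_abs, abs_of_nonneg (Real.rpow_nonneg hx0 _)] at hx
    exact (le_abs_self _).trans hx
  filter_upwards [hq.eventually ev1, hq.eventually_ge_atTop C, hq.eventually_ge_atTop 1,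
    hlog.eventually_ge_atTop (|Real.log s| / c), eventually_ge_atTop 1] with n g1 g2 g3 g4 g5
  obtain ⟨h1, h2⟩ := h n (q n) g2
  have hn0 : (0 : ℝ) < n := by exact_mod_cast g5
  have hL0 : 0 ≤ Real.log (n : ℝ) := Real.log_natCast_nonneg n
  have e1 : Real.log n * (A * Real.log ((q n : ℝ) ^ 3 * Real.log n)) ≤
      c * Real.log n * ((q n : ℝ) ^ 3 * Real.log n) ^ (1 / 46 : ℝ) := by
    have := mul_le_mul_of_nonneg_left g1 hL0
    linarith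
  refine ⟨h1.trans (ENNReal.ofReal_le_ofReal ?_), le_trans ?_ (h2 s ?_)⟩
  · rw [Real.rpow_def_of_pos hn0]
    exact Real.exp_le_exp.2 (by linarith)
  · rw [Real.rpow_def_of_pos hn0]
    exact_mod_cast Nat.ceil_le_ceil (Real.exp_le_exp.2 e1)
  · rw [← Real.exp_log hs]
    refine Real.exp_le_exp.2 ?_
    have f1 : 1 ≤ ((q n : ℝ) ^ 3 * Real.log n) ^ (1 / 46 : ℝ) := Real.one_le_rpow g3 (by norm_num)
    have f2 := mul_le_mul_of_nonneg_left f1 (mul_nonneg hc.le hL0)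
    rw [div_le_iff₀ hc] at g4
    have f3 := neg_abs_le (Real.log s)
    linarith

theorem fixed_q (q : I) (h0 : 0 < (q : ℝ)) (h1 : (q : ℝ) < 1) : ∃ c : ℝ, 0 < c ∧ ∀ a : ℝ, 2 < a →
    ∀ᶠ n : ℕ in atTop,
      (⌈Real.exp (c * (Real.log n) ^ (1 + 1 / 46 : ℝ))⌉₊ : ℕ∞) ≤ T q n ∧
      T q n ≤ (⌊Real.exp ((Real.log n) ^ a)⌋₊ : ℕ∞) := by
  obtain ⟨c, C, hc, h⟩ := lower_cube
  have hq3 : 0 < (q : ℝ) ^ 3 := by positivity
  refine ⟨c * ((q : ℝ) ^ 3) ^ (1 / 46 : ℝ), by positivity, fun a ha => ?_⟩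
  obtain ⟨D, hD, hup⟩ := H778.exp_two (α := (a + 2) / 2) (by linarith)
  have hlog : Tendsto (fun n : ℕ => Real.log (n : ℝ)) atTop atTop :=
    Real.tendsto_log_atTop.comp tendsto_natCast_atTop_atTop
  have ev1 := hlog.eventually (MA.ev_pow_le (D / (1 - q)) ((a + 2) / 2) a (by linarith))
  filter_upwards [ev1, hlog.eventually_ge_atTop (max C 1 / (q : ℝ) ^ 3),
    hlog.eventually_ge_atTop (1 / c), eventually_ge_atTop 2] with n g1 g2 g3 g4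
  have hL0 : 0 < Real.log (n : ℝ) := lt_of_lt_of_le (by positivity) g3
  rw [div_le_iff₀ hq3, mul_comm] at g2
  refine ⟨?_, (hup q h1 n g4).trans ?_⟩
  · rw [T_eq_Ts]
    have e : c * ((q : ℝ) ^ 3) ^ (1 / 46 : ℝ) * (Real.log n) ^ (1 + 1 / 46 : ℝ)
        = c * Real.log n * ((q : ℝ) ^ 3 * Real.log n) ^ (1 / 46 : ℝ) := by
      rw [Real.mul_rpow hq3.le hL0.le, Real.rpow_add hL0, Real.rpow_one]
      ring
    rw [e]
    refine (h n q ((le_max_left _ _).trans g2)).2 _ ?_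
    have f1 : 1 ≤ ((q : ℝ) ^ 3 * Real.log n) ^ (1 / 46 : ℝ) :=
      Real.one_le_rpow ((le_max_right _ _).trans g2) (by norm_num)
    have f2 := mul_le_mul_of_nonneg_left f1 (mul_nonneg hc.le hL0.le)
    rw [div_le_iff₀ hc] at g3
    have a2 : Real.exp (-1) ≤ 1 / 2 := by
      rw [Real.exp_neg, ← one_div]
      apply one_div_le_one_div_of_le (by norm_num)
      have := Real.add_one_le_exp (1 : ℝ)
      linarith
    have a3 : Real.exp (-(c * Real.log n * ((q : ℝ) ^ 3 * Real.log n) ^ (1 / 46 : ℝ)))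
        ≤ Real.exp (-1) := Real.exp_le_exp.2 (by linarith)
    linarith
  · exact_mod_cast Nat.floor_le_floor (Real.exp_le_exp.2 g1)

theorem result :
    (∃ c C : ℝ, 0 < c ∧ ∀ (n : ℕ) (q : I), C ≤ (q : ℝ) ^ 3 * Real.log n →
      minTV q n ≤ ENNReal.ofReal (Real.exp
        (-(c * Real.log n * ((q : ℝ) ^ 3 * Real.log n) ^ (1 / 46 : ℝ)))) ∧
      ∀ s : ℝ, Real.exp (-(c * Real.log n * ((q : ℝ) ^ 3 * Real.log n) ^ (1 / 46 : ℝ))) ≤ s →
        (⌈Real.exp (c * Real.log n * ((q : ℝ) ^ 3 * Real.log n) ^ (1 / 46 : ℝ))⌉₊ : ℕ∞)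
          ≤ Ts q s n) ∧
    (∀ q : ℕ → I, Tendsto (fun n : ℕ => (q n : ℝ) ^ 3 * Real.log n) atTop atTop →
      ∀ A s : ℝ, 0 < s → ∀ᶠ n : ℕ in atTop,
        minTV (q n) n ≤ ENNReal.ofReal
          ((n : ℝ) ^ (-(A * Real.log ((q n : ℝ) ^ 3 * Real.log n)))) ∧
        (⌈(n : ℝ) ^ (A * Real.log ((q n : ℝ) ^ 3 * Real.log n))⌉₊ : ℕ∞) ≤ Ts (q n) s n) ∧
    (∀ q : I, 0 < (q : ℝ) → (q : ℝ) < 1 → ∃ c : ℝ, 0 < c ∧ ∀ a : ℝ, 2 < a → ∀ᶠ n : ℕ in atTop,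
      (⌈Real.exp (c * (Real.log n) ^ (1 + 1 / 46 : ℝ))⌉₊ : ℕ∞) ≤ T q n ∧
      T q n ≤ (⌊Real.exp ((Real.log n) ^ a)⌋₊ : ℕ∞)) ∧
    (∀ (q : I) (n : ℕ), T q n = Ts q (2 / 3) n) ∧
    (∀ a : ℝ, 2 < a → ∃ C : ℝ, 0 < C ∧ ∀ q : I, (q : ℝ) < 1 → ∀ n : ℕ, 2 ≤ n →
      ∀ s : ℝ, s ≤ 1 - Real.exp (-n) →
        Ts q s n ≤ (⌊Real.exp (C / (1 - q) * (Real.log n) ^ a)⌋₊ : ℕ∞)) ∧
    (∀ a : ℝ, 2 < a → ∃ C : ℝ, 0 < C ∧ ∀ q : I, 0 < (q : ℝ) → (q : ℝ) ≤ 1 / 2 →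
      ∀ n : ℕ, 2 ≤ n → ∀ s : ℝ, s ≤ 1 - Real.exp (-n) →
        Ts q s n ≤ (⌊Real.exp (C * Real.log n *
          (1 + Real.log n / Real.log (1 / (q : ℝ))) ^ (a - 1))⌋₊ : ℕ∞)) ∧
    ∀ δ : ℝ, 0 < δ → ∃ C : ℝ, 0 < C ∧ ∀ n : ℕ, 2 ≤ n → ∀ q : I, (q : ℝ) ≤ (n : ℝ) ^ (-δ) →
      ∀ s : ℝ, s ≤ 1 - Real.exp (-n) → Ts q s n ≤ (⌊(n : ℝ) ^ C⌋₊ : ℕ∞) :=
  ⟨lower_cube, seq_form, fixed_q, T_eq_Ts, fun _ ha => upper_s ha, fun _ ha => half_s ha,
    fun _ hδ => small_s hδ⟩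

end Vale.Agent.Results.P321.Window
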